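import Mathlib

/-!
# Minimal join covers and join dependency

In a finite lattice every join cover of `k` with no member above `k` refines to a minimal one.
Ranking the irreducibles by what they reach along join dependency separates the components.
-/

namespace Vale.Agent.P183.Levels

open scoped Classical

variable {L : Type} [Lattice L] [OrderBot L]

/-- A join cover of `k` by irreducibles, none above `k`, contained in every refining one. -/
def IsMinCover (k : L) (B : Finset L) : Prop :=
  (∀ b ∈ B, SupIrred b ∧ ¬k ≤ b) ∧ k ≤ B.sup id ∧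
    ∀ C : Finset L, (∀ c ∈ C, SupIrred c ∧ ∃ b ∈ B, c ≤ b) → k ≤ C.sup id → B ⊆ C

/-- The join dependency: `b` is a member of some minimal join cover of `k`. -/
def JoinDep (k b : L) : Prop := ∃ B, IsMinCover k B ∧ b ∈ B

/-- Every join cover with no member above `k` refines to a minimal one. -/
theorem exists_isMinCover [Fintype L] {k : L} {A : Finset L} (hA : ∀ a ∈ A, ¬k ≤ a)
    (hk : k ≤ A.sup id) : ∃ B, IsMinCover k B ∧ ∀ b ∈ B, ∃ a ∈ A, b ≤ a := by
  let down : Finset L → Finset L :=
    fun B => Finset.univ.filter fun i => SupIrred i ∧ ∃ b ∈ B, i ≤ b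
  have hdown : ∀ B : Finset L, (∀ i ∈ down B, SupIrred i ∧ ∃ b ∈ B, i ≤ b) ∧
      B.sup id ≤ (down B).sup id := by
    intro B
    refine ⟨fun i hi => (Finset.mem_filter.1 hi).2, Finset.sup_le fun b hb => ?_⟩
    obtain ⟨T, hT, hirr⟩ := exists_supIrred_decomposition b
    show b ≤ _
    rw [← hT]
    refine Finset.sup_le fun t ht => Finset.le_sup (f := id)
      (Finset.mem_filter.2 ⟨Finset.mem_univ _, hirr ht, b, hb, ?_⟩)
    rw [← hT]
    exact Finset.le_sup (f := id) ht
  let cand : Finset (Finset L) :=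
    Finset.univ.filter fun S => S ⊆ down A ∧ k ≤ S.sup id ∧ down S = S
  have hdd : ∀ B, down (down B) = down B := by
    intro B
    ext i
    simp only [down, Finset.mem_filter, Finset.mem_univ, true_and]
    exact ⟨fun ⟨h, b, ⟨_, a, ha, hba⟩, hib⟩ => ⟨h, a, ha, hib.trans hba⟩,
      fun ⟨h, a, ha, hia⟩ => ⟨h, i, ⟨h, a, ha, hia⟩, le_rfl⟩⟩
  have hne : cand.Nonempty :=
    ⟨down A, Finset.mem_filter.2 ⟨Finset.mem_univ _, subset_rfl, hk.trans (hdown A).2, hdd A⟩⟩
  obtain ⟨S, hS, hmin⟩ := Finset.exists_min_image cand Finset.card hne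
  obtain ⟨hSA, hkS, hSS⟩ := (Finset.mem_filter.1 hS).2
  have hSmem : ∀ i ∈ S, SupIrred i ∧ ∃ a ∈ A, i ≤ a := fun i hi => (hdown A).1 i (hSA hi)
  let B : Finset L := S.filter fun b => ∀ c ∈ S, b ≤ c → c ≤ b
  have habove : ∀ i ∈ S, ∃ b ∈ B, i ≤ b := by
    intro i hi
    obtain ⟨b, hib, hb⟩ := S.exists_le_maximal hi
    exact ⟨b, Finset.mem_filter.2 ⟨hb.1, fun c hc hbc => hb.2 hc hbc⟩, hib⟩
  refine ⟨B, ⟨fun b hb => ?_, hkS.trans (Finset.sup_le fun i hi => ?_), fun C hC hkC b hb => ?_⟩,
    fun b hb => (hSmem b (Finset.mem_filter.1 hb).1).2⟩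
  · obtain ⟨hbi, a, ha, hba⟩ := hSmem b (Finset.mem_filter.1 hb).1
    exact ⟨hbi, fun h => hA a ha (h.trans hba)⟩
  · obtain ⟨b, hb, hib⟩ := habove i hi
    exact hib.trans (Finset.le_sup (f := id) hb)
  · have hCS : down C ⊆ S := by
      intro i hi
      obtain ⟨hii, c, hc, hic⟩ := (hdown C).1 i hi
      obtain ⟨-, b', hb', hcb'⟩ := hC c hc
      rw [← hSS]
      exact Finset.mem_filter.2
        ⟨Finset.mem_univ _, hii, b', (Finset.mem_filter.1 hb').1, hic.trans hcb'⟩
    have hmem : down C ∈ cand :=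
      Finset.mem_filter.2 ⟨Finset.mem_univ _, hCS.trans hSA, hkC.trans (hdown C).2, hdd C⟩
    have heq : down C = S := Finset.eq_of_subset_of_card_le hCS (hmin _ hmem)
    obtain ⟨-, c, hc, hbc⟩ := (hdown C).1 b (heq ▸ (Finset.mem_filter.1 hb).1)
    obtain ⟨-, b', hb', hcb'⟩ := hC c hc
    have hb'b : b' ≤ b :=
      (Finset.mem_filter.1 hb).2 b' (Finset.mem_filter.1 hb').1 (hbc.trans hcb')
    exact le_antisymm hbc (hcb'.trans hb'b) ▸ hc

/-- The elements reached from `k`. -/
noncomputable def reach [Fintype L] (k : L) : Finset L :=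
  Finset.univ.filter fun b => Relation.ReflTransGen JoinDep k b

/-- A rank which does not increase along join dependency and separates the components. -/
noncomputable def rank [Fintype L] (k : L) : ℕ :=
  (reach k).card * Fintype.card (Finset L) + (Fintype.equivFin (Finset L) (reach k)).val

theorem mem_reach [Fintype L] {k b : L} :
    b ∈ reach k ↔ Relation.ReflTransGen JoinDep k b := by simp [reach]

theorem rank_le [Fintype L] {k b : L} (h : Relation.ReflTransGen JoinDep k b) :
    rank b ≤ rank k := by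
  have hsub : reach b ⊆ reach k := fun x hx => mem_reach.2 (h.trans (mem_reach.1 hx))
  rcases (Finset.card_le_card hsub).eq_or_lt with he | hlt
  · rw [rank, rank, Finset.eq_of_subset_of_card_le hsub he.ge]
  · have h1 := (Fintype.equivFin (Finset L) (reach b)).isLt
    have h2 := Nat.mul_le_mul_right (Fintype.card (Finset L)) hlt
    rw [Nat.succ_mul] at h2
    unfold rank
    omega

theorem reach_of_rank_eq [Fintype L] {k b : L} (h : rank b = rank k) :
    Relation.ReflTransGen JoinDep b k := by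
  have h1 := (Fintype.equivFin (Finset L) (reach b)).isLt
  have h2 := (Fintype.equivFin (Finset L) (reach k)).isLt
  have huv : (Fintype.equivFin (Finset L) (reach b)).val =
      (Fintype.equivFin (Finset L) (reach k)).val := by
    have h' := congrArg (· % Fintype.card (Finset L)) h
    simp only [rank, Nat.mul_add_mod_self_right] at h'
    rwa [Nat.mod_eq_of_lt h1, Nat.mod_eq_of_lt h2] at h'
  have heq : reach b = reach k := (Fintype.equivFin (Finset L)).injective (Fin.ext huv)
  exact mem_reach.1 (heq ▸ mem_reach.2 Relation.ReflTransGen.refl)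

/-- Every join cover refines without increasing the rank. -/
theorem exists_refinement [Fintype L] {k : L} (hk : SupIrred k) {A : Finset L}
    (hA : k ≤ A.sup id) : ∃ B : Finset L, (∀ b ∈ B, SupIrred b ∧ ∃ a ∈ A, b ≤ a) ∧
      k ≤ B.sup id ∧ ∀ b ∈ B, rank b ≤ rank k := by
  by_cases h : ∃ a ∈ A, k ≤ a
  · obtain ⟨a, ha, hka⟩ := h
    exact ⟨{k}, fun b hb => (Finset.mem_singleton.1 hb) ▸ ⟨hk, a, ha, hka⟩, by simp,
      fun b hb => (Finset.mem_singleton.1 hb) ▸ le_rfl⟩
  · obtain ⟨B, hB, hBA⟩ := exists_isMinCover (fun a ha hka => h ⟨a, ha, hka⟩) hA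
    exact ⟨B, fun b hb => ⟨(hB.1 b hb).1, hBA b hb⟩, hB.2.1,
      fun b hb => rank_le (Relation.ReflTransGen.single ⟨B, hB, hb⟩)⟩

end Vale.Agent.P183.Levels
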