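import Vale.Agent.P183.Glue.Interface

/-!
# Representing a lattice level by level

The join-irreducibles carry a rank, and every join cover of `k` refines to one of rank at most
that of `k`.  The lattice of level `n` lets covers conclude items of rank `n`, once the items of
lower rank below them are there; there the items of lower rank are join-prime.  If all these
lattices are representable, gluing makes the whole lattice representable.
-/

namespace Vale.Agent.P183.Levels

open scoped Classical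

/-- Representable lattices are closed under gluing. -/
def GlueStmt : Prop :=
  ∀ {ι κ β : Type} {R : ι → ι → Prop} {S : κ → κ → Prop}, IsConLattice R → IsConLattice S →
    ∀ φ : ι → κ, (∀ i j, R i j → S (φ i) (φ j)) → ∀ (b m : β → κ) (q : β → ι),
      (∀ t y, ¬S (b t) y ↔ S y (m t)) → (∀ t i, S (b t) (φ i) → R (q t) i) →
      IsConLattice (Glue.PairsLe R S φ b q)

variable {L : Type} [Lattice L] [OrderBot L] (r : L → ℕ)

/-- The irreducibles of rank below `n` in an element of `L`, cut down to their closed sets. -/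
def ClosedBelow (n : ℕ) (X : Set L) : Prop :=
  (∀ x ∈ X, SupIrred x ∧ r x < n) ∧
    ∀ k, SupIrred k → r k < n → ∀ A : Finset L, (↑A : Set L) ⊆ X → k ≤ A.sup id → k ∈ X

/-- The closed sets of level `n`: down sets of irreducibles of rank at most `n`, containing an
irreducible of rank `n` once a finite subset covers it and lies above its parts of lower rank. -/
def LocalClosed (n : ℕ) (Y : Set L) : Prop :=
  (∀ y ∈ Y, SupIrred y ∧ r y ≤ n) ∧
    (∀ y ∈ Y, ∀ k, SupIrred k → r k ≤ n → k ≤ y → k ∈ Y) ∧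
    ∀ k, SupIrred k → r k = n → ∀ A : Finset L, (↑A : Set L) ⊆ Y → k ≤ A.sup id →
      (∀ j, SupIrred j → r j < n → j ≤ k → ∃ a ∈ A, j ≤ a) → k ∈ Y

/-- The order of the closed sets of level `n`. -/
def LocalLe (n : ℕ) (P Q : {Y : Set L // LocalClosed r n Y}) : Prop := P.1 ⊆ Q.1

/-- The order of the closed sets below `n`. -/
def BelowLe (n : ℕ) (P Q : {X : Set L // ClosedBelow r n X}) : Prop := P.1 ⊆ Q.1

/-- The least closed set below `n` containing `S`. -/
def clBelow (n : ℕ) (S : Set L) : Set L :=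
  {i | SupIrred i ∧ r i < n ∧ ∀ X, ClosedBelow r n X → S ⊆ X → i ∈ X}

theorem closedBelow_cl (n : ℕ) (S : Set L) : ClosedBelow r n (clBelow r n S) :=
  ⟨fun _ hx => ⟨hx.1, hx.2.1⟩, fun k hk hr A hA hkA => ⟨hk, hr, fun X hX hS =>
    hX.2 k hk hr A (fun a ha => (hA ha).2.2 X hX hS) hkA⟩⟩

/-- The least closed set of level `n` containing `S`. -/
def clLocal (n : ℕ) (S : Set L) : Set L :=
  {i | SupIrred i ∧ r i ≤ n ∧ ∀ Y, LocalClosed r n Y → S ⊆ Y → i ∈ Y}

theorem localClosed_cl (n : ℕ) (S : Set L) : LocalClosed r n (clLocal r n S) :=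
  ⟨fun _ hx => ⟨hx.1, hx.2.1⟩,
    fun y hy k hk hr hky => ⟨hk, hr, fun Y hY hS => hY.2.1 y (hy.2.2 Y hY hS) k hk hr hky⟩,
    fun k hk hr A hA hkA hg => ⟨hk, hr.le, fun Y hY hS =>
      hY.2.2 k hk hr A (fun a ha => (hA ha).2.2 Y hY hS) hkA hg⟩⟩

/-- The items not above `j`: the largest closed set of level `n` avoiding an item `j` of lower
rank. -/
theorem localClosed_avoid {n : ℕ} {j : L} (hj : SupIrred j) (hjn : r j < n) :
    LocalClosed r n {i | SupIrred i ∧ r i ≤ n ∧ ¬j ≤ i} :=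
  ⟨fun _ hy => ⟨hy.1, hy.2.1⟩,
    fun _ hy k hk hr hky => ⟨hk, hr, fun h => hy.2.2 (h.trans hky)⟩,
    fun k hk hr A hA _ hg => ⟨hk, hr.le, fun h => by
      obtain ⟨a, ha, hja⟩ := hg j hj hjn h
      exact (hA ha).2.2 hja⟩⟩

theorem subset_avoid_iff {n : ℕ} {j : L} (hj : SupIrred j) (hjn : r j < n) {Y : Set L}
    (hY : LocalClosed r n Y) : Y ⊆ {i | SupIrred i ∧ r i ≤ n ∧ ¬j ≤ i} ↔ j ∉ Y :=
  ⟨fun h hjY => (h hjY).2.2 le_rfl, fun h y hy =>
    ⟨(hY.1 y hy).1, (hY.1 y hy).2, fun hle => h (hY.2.1 y hy j hj hjn.le hle)⟩⟩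

theorem clLocal_singleton_subset_iff {n : ℕ} {j : L} (hj : SupIrred j) (hjn : r j ≤ n) {Y : Set L}
    (hY : LocalClosed r n Y) : clLocal r n {j} ⊆ Y ↔ j ∈ Y :=
  ⟨fun h => h ⟨hj, hjn, fun _ _ hS => hS rfl⟩,
    fun h _ hi => hi.2.2 Y hY (Set.singleton_subset_iff.2 h)⟩

/-- The one-point order is a congruence lattice. -/
theorem isConLattice_unique {ι : Type} [Unique ι] (R : ι → ι → Prop) (h : ∀ i j, R i j) :
    IsConLattice R := by
  refine ⟨PUnit, inferInstance, inferInstance, 0, fun k => Fin.elim0 k, fun k => Fin.elim0 k, ?_,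
    fun i j => iff_of_true (h i j) fun {a b} _ => ?_⟩
  · exact
      { toFun := fun _ => ⟨⊥, fun k => Fin.elim0 k⟩
        invFun := fun _ => default
        left_inv := fun i => Subsingleton.elim _ _
        right_inv := fun θ => Subtype.ext (Setoid.ext fun a b => by
          cases a; cases b; exact iff_of_true rfl (θ.1.refl' _)) }
  · cases a; cases b
    exact Setoid.refl' _ _

variable [Fintype L]
  (href : ∀ k : L, SupIrred k → ∀ A : Finset L, k ≤ A.sup id → ∃ B : Finset L,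
    (∀ b ∈ B, SupIrred b ∧ ∃ a ∈ A, b ≤ a) ∧ k ≤ B.sup id ∧ ∀ b ∈ B, r b ≤ r k)

include href in
/-- One level: the closed sets below `n + 1` are the closed sets below `n` glued to those of
level `n`. -/
theorem isConLattice_below_succ (hglue : GlueStmt) (n : ℕ)
    (h1 : IsConLattice (BelowLe r n)) (h2 : IsConLattice (LocalLe r n)) :
    IsConLattice (BelowLe r (n + 1)) := by
  let φ : {X : Set L // ClosedBelow r n X} → {Y : Set L // LocalClosed r n Y} :=
    fun C => ⟨clLocal r n C.1, localClosed_cl r n C.1⟩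
  let b : {j : L // SupIrred j ∧ r j < n} → {Y : Set L // LocalClosed r n Y} :=
    fun j => ⟨clLocal r n {j.1}, localClosed_cl r n _⟩
  let m : {j : L // SupIrred j ∧ r j < n} → {Y : Set L // LocalClosed r n Y} :=
    fun j => ⟨_, localClosed_avoid r j.2.1 j.2.2⟩
  let q : {j : L // SupIrred j ∧ r j < n} → {X : Set L // ClosedBelow r n X} :=
    fun j => ⟨clBelow r n {j.1}, closedBelow_cl r n _⟩
  have hb : ∀ t y, ¬LocalLe r n (b t) y ↔ LocalLe r n y (m t) := fun t y =>
    (not_congr (clLocal_singleton_subset_iff r t.2.1 t.2.2.le y.2)).trans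
      (subset_avoid_iff r t.2.1 t.2.2 y.2).symm
  have hsat : ∀ C : {X : Set L // ClosedBelow r n X}, ∀ j, SupIrred j → r j < n →
      j ∈ clLocal r n C.1 → j ∈ C.1 := by
    intro C j hj hjn hmem
    refine (hmem.2.2 {i | SupIrred i ∧ r i ≤ n ∧
      ∀ j, SupIrred j → r j < n → j ≤ i → j ∈ C.1} ?_ ?_).2.2 j hj hjn le_rfl
    · refine ⟨fun _ hy => ⟨hy.1, hy.2.1⟩,
        fun y hy k hk hr hky => ⟨hk, hr, fun i hi hin hik => hy.2.2 i hi hin (hik.trans hky)⟩,
        fun k hk hr A hA _ hg => ⟨hk, hr.le, fun i hi hin hik => ?_⟩⟩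
      obtain ⟨a, ha, hia⟩ := hg i hi hin hik
      exact (hA ha).2.2 i hi hin hia
    · intro c hc
      refine ⟨(C.2.1 c hc).1, (C.2.1 c hc).2.le, fun i hi hin hic => ?_⟩
      exact C.2.2 i hi hin {c} (by simpa using hc) (by simpa using hic)
  have hq : ∀ t i, LocalLe r n (b t) (φ i) → BelowLe r n (q t) i := fun t i h =>
    fun x hx => hx.2.2 i.1 i.2 (Set.singleton_subset_iff.2 (hsat i t.1 t.2.1 t.2.2
      ((clLocal_singleton_subset_iff r t.2.1 t.2.2.le (φ i).2).1 h)))
  have hg := hglue h1 h2 φ (fun i j hij x hx => ⟨hx.1, hx.2.1, fun Y hY hS =>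
    hx.2.2 Y hY (hij.trans hS)⟩) b m q hb hq
  have hlow : ∀ p : Glue.Pairs (BelowLe r n) (LocalLe r n) φ b q, ∀ j,
      j ∈ p.1.1.1 ↔ j ∈ p.1.2.1 ∧ r j < n := by
    intro p j
    refine ⟨fun h => ⟨p.2.1 ⟨(p.1.1.2.1 j h).1, (p.1.1.2.1 j h).2.le, fun Y _ hS => hS h⟩,
      (p.1.1.2.1 j h).2⟩, fun ⟨h, hjn⟩ => ?_⟩
    have hj := (p.1.2.2.1 j h).1
    refine p.2.2 ⟨j, hj, hjn⟩ ((clLocal_singleton_subset_iff r hj hjn.le p.1.2.2).2 h) ?_
    exact ⟨hj, hjn, fun X _ hS => hS rfl⟩
  have hfull : ∀ p : Glue.Pairs (BelowLe r n) (LocalLe r n) φ b q,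
      ClosedBelow r (n + 1) p.1.2.1 := by
    intro p
    refine ⟨fun x hx => ⟨(p.1.2.2.1 x hx).1, Nat.lt_succ_of_le (p.1.2.2.1 x hx).2⟩,
      fun k hk hr A hA hkA => ?_⟩
    have low : ∀ j, SupIrred j → r j < n → j ≤ A.sup id → j ∈ p.1.1.1 := by
      intro j hj hjn hjA
      obtain ⟨B, hB, hjB, hBr⟩ := href j hj A hjA
      refine p.1.1.2.2 j hj hjn B (fun x hx => ?_) hjB
      obtain ⟨hxi, a, ha, hxa⟩ := hB x hx
      have hxn : r x < n := (hBr x hx).trans_lt hjn
      exact (hlow p x).2 ⟨p.1.2.2.2.1 a (hA ha) x hxi hxn.le hxa, hxn⟩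
    rcases (Nat.lt_succ_iff.1 hr).eq_or_lt with hr | hr
    · refine p.1.2.2.2.2 k hk hr
        (A ∪ Finset.univ.filter fun j => SupIrred j ∧ r j < n ∧ j ≤ k) (fun x hx => ?_)
        (hkA.trans (Finset.sup_mono Finset.subset_union_left)) fun j hj hjn hjk =>
          ⟨j, Finset.mem_union_right _ (by simp [hj, hjn, hjk]), le_rfl⟩
      simp only [Finset.coe_union, Set.mem_union, Finset.mem_coe, Finset.mem_filter,
        Finset.mem_univ, true_and] at hx
      rcases hx with hx | ⟨hxi, hxn, hxk⟩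
      · exact hA hx
      · exact ((hlow p x).1 (low x hxi hxn (hxk.trans hkA))).1
    · exact ((hlow p k).1 (low k hk hr hkA)).1
  let f : {X : Set L // ClosedBelow r (n + 1) X} ≃
      Glue.Pairs (BelowLe r n) (LocalLe r n) φ b q :=
    { toFun := fun X => ⟨(⟨{x | x ∈ X.1 ∧ r x < n}, fun x hx => ⟨(X.2.1 x hx.1).1, hx.2⟩,
          fun k hk hr A hA hkA =>
            ⟨X.2.2 k hk (by omega) A (fun a ha => (hA ha).1) hkA, hr⟩⟩,
        ⟨X.1, fun y hy => ⟨(X.2.1 y hy).1, Nat.lt_succ_iff.1 (X.2.1 y hy).2⟩,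
          fun y hy k hk hr hky => X.2.2 k hk (Nat.lt_succ_of_le hr) {y} (by simpa using hy)
            (by simpa using hky),
          fun k hk hr A hA hkA _ => X.2.2 k hk (by omega) A hA hkA⟩), by
        refine ⟨fun x hx => hx.2.2 X.1 ?_ fun c hc => hc.1, fun t ht x hx => ?_⟩
        · exact ⟨fun y hy => ⟨(X.2.1 y hy).1, Nat.lt_succ_iff.1 (X.2.1 y hy).2⟩,
            fun y hy k hk hr hky => X.2.2 k hk (Nat.lt_succ_of_le hr) {y} (by simpa using hy)
              (by simpa using hky),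
            fun k hk hr A hA hkA _ => X.2.2 k hk (by omega) A hA hkA⟩
        · refine hx.2.2 _ ?_ (Set.singleton_subset_iff.2
            ⟨ht ⟨t.2.1, t.2.2.le, fun Y _ hS => hS rfl⟩, t.2.2⟩)
          exact ⟨fun x hx => ⟨(X.2.1 x hx.1).1, hx.2⟩, fun k hk hr A hA hkA =>
            ⟨X.2.2 k hk (by omega) A (fun a ha => (hA ha).1) hkA, hr⟩⟩⟩
      invFun := fun p => ⟨p.1.2.1, hfull p⟩
      left_inv := fun X => rfl
      right_inv := fun p => Subtype.ext (Prod.ext
        (Subtype.ext (Set.ext fun x => ((hlow p x)).symm)) rfl) }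
  exact hg.congr f fun X Y => ⟨fun h => ⟨fun x hx => ⟨h hx.1, hx.2⟩, h⟩, fun h => h.2⟩

include href in
/-- If every level is representable then so is the lattice. -/
theorem isConLattice_of_levels (hglue : GlueStmt) (hloc : ∀ n, IsConLattice (LocalLe r n)) :
    IsConLattice (fun a b : L => a ≤ b) := by
  have hall : ∀ n, IsConLattice (BelowLe r n) := by
    intro n
    induction n with
    | zero =>
      have hempty : ∀ X : {X : Set L // ClosedBelow r 0 X}, X.1 = ∅ := fun X =>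
        Set.eq_empty_of_forall_notMem fun x hx => Nat.not_lt_zero _ (X.2.1 x hx).2
      let u : Unique {X : Set L // ClosedBelow r 0 X} :=
        { default := ⟨∅, fun _ h => h.elim, fun _ _ h => absurd h (Nat.not_lt_zero _)⟩
          uniq := fun X => Subtype.ext (hempty X) }
      exact isConLattice_unique _ fun X Y => by simp [BelowLe, hempty X]
    | succ n ih => exact isConLattice_below_succ r href hglue n ih (hloc n)
  let N := Finset.univ.sup r + 1
  have hN : ∀ x, r x < N := fun x => Nat.lt_succ_of_le (Finset.le_sup (Finset.mem_univ x))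
  let f : L → {X : Set L // ClosedBelow r N X} := fun x => ⟨{j | SupIrred j ∧ j ≤ x},
    fun j hj => ⟨hj.1, hN j⟩, fun k hk _ A hA hkA =>
      ⟨hk, hkA.trans (Finset.sup_le fun a ha => (hA ha).2)⟩⟩
  have hle : ∀ x y, x ≤ y ↔ (f x).1 ⊆ (f y).1 := by
    refine fun x y => ⟨fun h j hj => ⟨hj.1, hj.2.trans h⟩, fun h => ?_⟩
    obtain ⟨T, hT, hirr⟩ := exists_supIrred_decomposition x
    rw [← hT]
    exact Finset.sup_le fun j hj => (h ⟨hirr hj, hT ▸ Finset.le_sup (f := id) hj⟩).2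
  have hf : Function.Bijective f := by
    refine ⟨fun x y h => le_antisymm ((hle x y).2 (congrArg Subtype.val h).le)
      ((hle y x).2 (congrArg Subtype.val h).ge), fun X => ?_⟩
    refine ⟨(Finset.univ.filter fun j => j ∈ X.1).sup id, Subtype.ext (Set.ext fun j => ?_)⟩
    exact ⟨fun h => X.2.2 j h.1 (hN j) _ (by intro a; simp) h.2,
      fun h => ⟨(X.2.1 j h).1, Finset.le_sup (f := id) (by simpa using h)⟩⟩
  exact (hall N).congr (Equiv.ofBijective f hf) hle

end Vale.Agent.P183.Levels
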