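import Vale.Agent.P183.CatalystHorn
import Vale.Agent.P183.Levels.MinCover
import Vale.Agent.P183.Levels.Step

/-!
# Catalytic levels

When each join cover of `k` refines to one with at most one member of the rank of `k` and none
above, every level is a catalyst closure system.
-/

namespace Vale.Agent.P183.Levels

open scoped Classical

variable {L : Type} [Lattice L] [OrderBot L] [Fintype L]

/-- A level with at most one member of top rank in each cover is representable. -/
theorem isConLattice_local (r : L → ℕ)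
    (hone : ∀ k : L, SupIrred k → ∀ A : Finset L, k ≤ A.sup id → ∃ B : Finset L,
      (∀ b ∈ B, SupIrred b ∧ ∃ a ∈ A, b ≤ a) ∧ k ≤ B.sup id ∧ (∀ b ∈ B, r b ≤ r k) ∧
      ∀ b ∈ B, ∀ b' ∈ B, r b = r k → r b' = r k → b = b')
    (n : ℕ) : IsConLattice (LocalLe r n) := by
  -- items: a set of irreducibles of lower rank together with one irreducible of rank at most `n`
  let Z := Finset {j : L // SupIrred j ∧ r j < n} × {j : L // SupIrred j ∧ r j ≤ n}
  let parts : Z → Set L := fun z => insert z.2.1 (Subtype.val '' (↑z.1 : Set {j : L // SupIrred j ∧ r j < n}))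
  let U : Set (Z × Z) := {t | t.2.1 = ∅ ∧ t.2.2.1 ∈ clLocal r n (parts t.1)}
  let B : Set (Z × Z × Z) :=
    {t | t.1.1 = ∅ ∧ ∃ h : r t.1.2.1 < n,
      t.2.2 = (insert ⟨t.1.2.1, t.1.2.2.1, h⟩ t.2.1.1, t.2.1.2)}
  have parts_empty : ∀ z : Z, z.1 = ∅ → parts z = {z.2.1} := by
    intro z h
    simp [parts, h]
  have parts_insert : ∀ (p : {j : L // SupIrred j ∧ r j < n}) (z : Z),
      parts (insert p z.1, z.2) = insert p.1 (parts z) := by
    intro p z
    simp [parts, Finset.coe_insert, Set.image_insert_eq, Set.insert_comm]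
  have hB : ∀ t ∈ B, Catalyst.IsPrimeItem U B t.1 := by
    rintro ⟨p, q, s⟩ ⟨hpe, hp, -⟩
    have hj := p.2.2.1
    refine ⟨{z | parts z ⊆ {i | SupIrred i ∧ r i ≤ n ∧ ¬p.2.1 ≤ i}},
      ⟨fun u v h hu i hi => ?_, fun u v w h hu hv i hi => ?_⟩, fun h => ?_,
      fun C' hC' hn z hz i hi => ⟨?_, ?_, fun hle => hn (hC'.1 z p ⟨hpe, ?_⟩ hz)⟩⟩
    · rw [parts_empty v h.1, Set.mem_singleton_iff] at hi
      exact hi ▸ h.2.2.2 _ (localClosed_avoid r hj hp) hu
    · obtain ⟨hue, hu', hw⟩ := h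
      dsimp only at hw
      rw [hw, parts_insert ⟨u.2.1, u.2.2.1, hu'⟩ v] at hi
      rcases Set.mem_insert_iff.1 hi with rfl | hi
      · exact hu (by rw [parts_empty u hue]; exact Set.mem_singleton _)
      · exact hv hi
    · exact (h (show p.2.1 ∈ parts p from Set.mem_insert _ _)).2.2 le_rfl
    · rcases hi with rfl | ⟨t, -, rfl⟩
      · exact z.2.2.1
      · exact t.2.1
    · rcases hi with rfl | ⟨t, -, rfl⟩
      · exact z.2.2.2
      · exact t.2.2.le
    · exact ⟨hj, hp.le, fun Y hY hS => hY.2.1 i (hS hi) _ hj hp.le hle⟩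
  let f : {Y : Set L // LocalClosed r n Y} → {C // Catalyst.IsClosedSet U B C} := fun Y =>
    ⟨{z | parts z ⊆ Y.1},
      fun p q h hp => by
        show parts q ⊆ Y.1
        rw [parts_empty q h.1]
        exact Set.singleton_subset_iff.2 (h.2.2.2 Y.1 Y.2 hp),
      fun p q s h hp hq => by
        obtain ⟨hpe, hp', hs⟩ := h
        dsimp only at hs
        show parts s ⊆ Y.1
        rw [hs, parts_insert ⟨p.2.1, p.2.2.1, hp'⟩ q]
        exact Set.insert_subset (hp (Set.mem_insert _ _)) hq⟩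
  have hle : ∀ Y Y', LocalLe r n Y Y' ↔ (f Y).1 ⊆ (f Y').1 := by
    refine fun Y Y' => ⟨fun h z hz => hz.trans h, fun h y hy => ?_⟩
    have hy' := Y.2.1 y hy
    have := @h (∅, ⟨y, hy'⟩) (show parts _ ⊆ Y.1 by rw [parts_empty _ rfl]; simpa using hy)
    exact this (Set.mem_insert _ _)
  have hf : Function.Bijective f := by
    refine ⟨fun Y Y' h => Subtype.ext (subset_antisymm ((hle Y Y').2 (congrArg Subtype.val h).le)
      ((hle Y' Y).2 (congrArg Subtype.val h).ge)), fun C => ?_⟩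
    let Y : Set L := {i | ∃ h : SupIrred i ∧ r i ≤ n, ((∅, ⟨i, h⟩) : Z) ∈ C.1}
    have hget : ∀ z ∈ C.1, ∀ i, SupIrred i → r i ≤ n → i ∈ clLocal r n (parts z) → i ∈ Y :=
      fun z hz i hi hin h => ⟨⟨hi, hin⟩, C.2.1 z _ ⟨rfl, h⟩ hz⟩
    have hdown : ∀ y ∈ Y, ∀ k, SupIrred k → r k ≤ n → k ≤ y → k ∈ Y := by
      rintro y ⟨hy, hyC⟩ k hk hkn hky
      refine hget _ hyC k hk hkn ⟨hk, hkn, fun W hW hS => hW.2.1 y ?_ k hk hkn hky⟩
      exact hS (Set.mem_insert _ _)
    -- an item is in `C` as soon as its parts are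
    have hbuild : ∀ z : Z, parts z ⊆ Y → z ∈ C.1 := by
      rintro ⟨T, q⟩ hz
      induction T using Finset.induction_on with
      | empty =>
        obtain ⟨_, h⟩ := hz (Set.mem_insert _ _)
        exact h
      | @insert p T _ ih =>
        rw [parts_insert p (T, q), Set.insert_subset_iff] at hz
        obtain ⟨_, hpC⟩ := hz.1
        exact C.2.2 (∅, ⟨p.1, p.2.1, p.2.2.le⟩) (T, q) _ ⟨rfl, p.2.2, rfl⟩ hpC (ih hz.2)
    have hY : LocalClosed r n Y := by
      refine ⟨fun y ⟨h, _⟩ => h, hdown, fun k hk hkr A hA hkA hg => ?_⟩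
      obtain ⟨S, hS, hkS, hSr, hSone⟩ := hone k hk A hkA
      have hSY : ∀ x ∈ S, x ∈ Y := fun x hx => by
        obtain ⟨hxi, a, ha, hxa⟩ := hS x hx
        exact hdown a (hA ha) x hxi ((hSr x hx).trans hkr.le) hxa
      let T : Finset {j : L // SupIrred j ∧ r j < n} :=
        Finset.univ.filter fun j => j.1 ∈ S ∨ j.1 ≤ k
      have hTY : ∀ j ∈ T, j.1 ∈ Y := by
        intro j hj
        rcases (Finset.mem_filter.1 hj).2 with h | h
        · exact hSY _ h
        · obtain ⟨a, ha, hja⟩ := hg j.1 j.2.1 j.2.2 h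
          exact hdown a (hA ha) j.1 j.2.1 j.2.2.le hja
      obtain ⟨q, hqS, hq⟩ : ∃ q ∈ S, ∀ x ∈ S, r x = r k → x = q := by
        by_cases h : ∃ q ∈ S, r q = r k
        · obtain ⟨q, hqS, hqr⟩ := h
          exact ⟨q, hqS, fun x hx hxr => hSone x hx q hqS hxr hqr⟩
        · rcases S.eq_empty_or_nonempty with rfl | ⟨q, hqS⟩
          · exact absurd (le_bot_iff.1 (by simpa using hkS)) hk.ne_bot
          · exact ⟨q, hqS, fun x hx hxr => absurd ⟨x, hx, hxr⟩ h⟩
      let z : Z := (T, ⟨q, (hS q hqS).1, (hSr q hqS).trans hkr.le⟩)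
      have hz : parts z ⊆ Y := by
        rintro x (hx | ⟨j, hj, rfl⟩)
        · exact hx ▸ hSY q hqS
        · exact hTY j hj
      refine hget z (hbuild z hz) k hk hkr.le ⟨hk, hkr.le, fun W hW hWz => ?_⟩
      have hTW : ∀ j ∈ T, j.1 ∈ W := fun j hj => hWz (Or.inr ⟨j, hj, rfl⟩)
      refine hW.2.2 k hk hkr (S ∪ T.image Subtype.val) (fun x hx => ?_)
        (hkS.trans (Finset.sup_mono Finset.subset_union_left)) fun j hj hjn hjk =>
          ⟨j, Finset.mem_union_right _ (Finset.mem_image.2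
            ⟨⟨j, hj, hjn⟩, by simp [T, hjk], rfl⟩), le_rfl⟩
      rcases Finset.mem_union.1 hx with hx | hx
      · by_cases hxr : r x = r k
        · exact hq x hx hxr ▸ hWz (Set.mem_insert _ _)
        · exact hTW ⟨x, (hS x hx).1, hkr ▸ lt_of_le_of_ne (hSr x hx) hxr⟩ (by simp [T, hx])
      · obtain ⟨j, hj, rfl⟩ := Finset.mem_image.1 hx
        exact hTW j hj
    refine ⟨⟨Y, hY⟩, Subtype.ext (Set.ext fun z => ⟨fun h => hbuild z h, fun h x hx => ?_⟩)⟩
    rcases hx with rfl | ⟨j, hj, rfl⟩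
    · exact hget z h _ z.2.2.1 z.2.2.2 ⟨z.2.2.1, z.2.2.2, fun W _ hS => hS (Set.mem_insert _ _)⟩
    · exact hget z h j.1 j.2.1 j.2.2.le
        ⟨j.2.1, j.2.2.le, fun W _ hS => hS (Or.inr ⟨j, hj, rfl⟩)⟩
  exact (Catalyst.isConLattice_closedSets U B hB).congr (Equiv.ofBijective f hf) hle

/-- A lattice is representable if each minimal join cover of an irreducible `k` has at most one
member from which `k` is reached along join dependency. -/
theorem isConLattice_of_component (hglue : GlueStmt)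
    (h : ∀ k : L, SupIrred k → ∀ B, IsMinCover k B → ∀ b ∈ B, ∀ b' ∈ B,
      Relation.ReflTransGen JoinDep b k → Relation.ReflTransGen JoinDep b' k → b = b') :
    IsConLattice (fun a b : L => a ≤ b) := by
  refine isConLattice_of_levels rank (fun k hk A hA => exists_refinement hk hA) hglue
    (isConLattice_local rank fun k hk A hA => ?_)
  by_cases hex : ∃ a ∈ A, k ≤ a
  · obtain ⟨a, ha, hka⟩ := hex
    exact ⟨{k}, fun b hb => (Finset.mem_singleton.1 hb) ▸ ⟨hk, a, ha, hka⟩, by simp,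
      fun b hb => (Finset.mem_singleton.1 hb) ▸ le_rfl, by simp⟩
  · obtain ⟨B, hB, hBA⟩ := exists_isMinCover (fun a ha hka => hex ⟨a, ha, hka⟩) hA
    exact ⟨B, fun b hb => ⟨(hB.1 b hb).1, hBA b hb⟩, hB.2.1,
      fun b hb => rank_le (Relation.ReflTransGen.single ⟨B, hB, hb⟩),
      fun b hb b' hb' e e' => h k hk B hB b hb b' hb' (reach_of_rank_eq e) (reach_of_rank_eq e')⟩

end Vale.Agent.P183.Levels
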