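import Vale.Agent.P183.Levels.MinCover
import Vale.Agent.P183.Levels.Step

/-!
# Reduction of the representation problem to one component

If the finite lattices whose irreducibles that are not join-prime all depend on each other are
representable, then every finite lattice is.
-/

namespace Vale.Agent.P183.Levels

open scoped Classical

variable {L : Type} [Lattice L] [OrderBot L] [Fintype L]

/-- The elements of level `n`. -/
abbrev Lvl (L : Type) [Lattice L] [OrderBot L] [Fintype L] (n : ℕ) :=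
  {Y : Set L // LocalClosed rank n Y}

noncomputable instance (n : ℕ) : Lattice (Lvl L n) :=
  { (inferInstance : PartialOrder (Lvl L n)) with
    sup := fun P Q => ⟨clLocal rank n (P.1 ∪ Q.1), localClosed_cl rank n _⟩
    le_sup_left := fun P Q x hx =>
      ⟨(P.2.1 x hx).1, (P.2.1 x hx).2, fun _ _ hS => hS (Or.inl hx)⟩
    le_sup_right := fun P Q x hx =>
      ⟨(Q.2.1 x hx).1, (Q.2.1 x hx).2, fun _ _ hS => hS (Or.inr hx)⟩
    sup_le := fun P Q W hP hQ x hx => hx.2.2 W.1 W.2 (Set.union_subset hP hQ)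
    inf := fun P Q => ⟨P.1 ∩ Q.1, fun y hy => P.2.1 y hy.1,
      fun y hy k hk hr hky => ⟨P.2.2.1 y hy.1 k hk hr hky, Q.2.2.1 y hy.2 k hk hr hky⟩,
      fun k hk hr A hA hkA hg =>
        ⟨P.2.2.2 k hk hr A (fun a ha => (hA ha).1) hkA hg,
          Q.2.2.2 k hk hr A (fun a ha => (hA ha).2) hkA hg⟩⟩
    inf_le_left := fun _ _ _ hx => hx.1
    inf_le_right := fun _ _ _ hx => hx.2
    le_inf := fun _ _ _ h1 h2 x hx => ⟨h1 hx, h2 hx⟩ }

noncomputable instance (n : ℕ) : OrderBot (Lvl L n) where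
  bot := ⟨clLocal rank n ∅, localClosed_cl rank n _⟩
  bot_le P := fun _ hx => hx.2.2 P.1 P.2 (Set.empty_subset _)

/-- The principal element of level `n`. -/
def down (n : ℕ) (i : L) : Lvl L n :=
  ⟨{x | SupIrred x ∧ rank x ≤ n ∧ x ≤ i}, fun _ hy => ⟨hy.1, hy.2.1⟩,
    fun _ hy _ hk hr hky => ⟨hk, hr, hky.trans hy.2.2⟩,
    fun _ hk hr _ hA hkA _ =>
      ⟨hk, hr.le, hkA.trans (Finset.sup_le fun a ha => (hA ha).2.2)⟩⟩

theorem down_le_iff {n : ℕ} {i : L} (hi : SupIrred i) (hin : rank i ≤ n) (P : Lvl L n) :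
    down n i ≤ P ↔ i ∈ P.1 :=
  ⟨fun h => h ⟨hi, hin, le_rfl⟩, fun h _ hx => P.2.2.1 i h _ hx.1 hx.2.1 hx.2.2⟩

theorem le_of_down_le {n : ℕ} {i j : L} (hi : SupIrred i) (hin : rank i ≤ n)
    (h : down n i ≤ down n j) : i ≤ j :=
  ((down_le_iff hi hin _).1 h).2.2

/-- Every irreducible of level `n` is principal. -/
theorem exists_eq_down {n : ℕ} {P : Lvl L n} (hP : SupIrred P) :
    ∃ i, SupIrred i ∧ rank i ≤ n ∧ P = down n i := by
  let T : Finset (Lvl L n) :=
    (Finset.univ.filter fun i : L => i ∈ P.1).image (down n)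
  have hT : T.sup id = P := by
    refine le_antisymm (Finset.sup_le fun Q hQ => ?_) fun i hi => ?_
    · obtain ⟨i, hi, rfl⟩ := Finset.mem_image.1 hQ
      have hi : i ∈ P.1 := (Finset.mem_filter.1 hi).2
      exact (down_le_iff (P.2.1 i hi).1 (P.2.1 i hi).2 P).2 hi
    · exact (down_le_iff (P.2.1 i hi).1 (P.2.1 i hi).2 _).1
        (Finset.le_sup (f := id) (Finset.mem_image.2 ⟨i, by simpa using hi, rfl⟩))
  obtain ⟨Q, hQ, hQP⟩ := hP.finset_sup_eq hT
  obtain ⟨i, hi, rfl⟩ := Finset.mem_image.1 hQ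
  have hi : i ∈ P.1 := (Finset.mem_filter.1 hi).2
  exact ⟨i, (P.2.1 i hi).1, (P.2.1 i hi).2, hQP.symm⟩

/-- The items of lower rank are join-prime. -/
theorem supPrime_down {n : ℕ} {j : L} (hj : SupIrred j) (hjn : rank j < n) :
    SupPrime (down n j) := by
  refine ⟨fun hmin => ?_, fun {P Q} h => ?_⟩
  · have h0 : (⊥ : Lvl L n).1 ⊆ (∅ : Set L) := fun x hx =>
      hx.2.2 _ ⟨fun _ h => h.elim, fun _ h => h.elim, fun k hk _ A hA hkA _ => ?_⟩ subset_rfl
    · exact h0 ((hmin bot_le : down n j ≤ ⊥) ⟨hj, hjn.le, le_rfl⟩)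
    · exact absurd (le_bot_iff.1 (hkA.trans (Finset.sup_le fun a ha => (hA ha).elim))) hk.ne_bot
  · rw [down_le_iff hj hjn.le, down_le_iff hj hjn.le]
    by_contra hc
    obtain ⟨hP, hQ⟩ := not_or.1 hc
    have := ((down_le_iff hj hjn.le _).1 h).2.2 _ (localClosed_avoid rank hj hjn)
      (Set.union_subset ((subset_avoid_iff rank hj hjn P.2).2 hP)
        ((subset_avoid_iff rank hj hjn Q.2).2 hQ))
    exact this.2.2 le_rfl

/-- A dependency inside a component is followed in its level. -/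
theorem dep_down {n : ℕ} {k : L} :
    SupIrred k → rank k = n → ∀ b, JoinDep k b → rank b = n →
      Relation.TransGen JoinDep (down n k) (down n b) := by
  induction k using WellFoundedLT.induction with
  | ind k ih =>
    rintro hk hkn b ⟨B, hB, hbB⟩ hbn
    have hrB : ∀ x ∈ B, rank x ≤ n := fun x hx =>
      hkn ▸ rank_le (Relation.ReflTransGen.single ⟨B, hB, hx⟩)
    let A : Finset L := B ∪ Finset.univ.filter fun j => SupIrred j ∧ rank j < n ∧ j ≤ k
    have hAi : ∀ a ∈ A, SupIrred a ∧ rank a ≤ n ∧ ¬k ≤ a ∧ a ≤ B.sup id := by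
      intro a ha
      rcases Finset.mem_union.1 ha with ha | ha
      · exact ⟨(hB.1 a ha).1, hrB a ha, (hB.1 a ha).2, Finset.le_sup (f := id) ha⟩
      · obtain ⟨-, hai, han, hak⟩ := Finset.mem_filter.1 ha
        refine ⟨hai, han.le, fun h => ?_, hak.trans hB.2.1⟩
        exact absurd (le_antisymm hak h ▸ hkn) han.ne
    have hcov : down n k ≤ (A.image (down n)).sup id := by
      rw [down_le_iff hk hkn.le]
      refine ((A.image (down n)).sup id).2.2.2 k hk hkn A ?_ ?_ ?_
      · intro a ha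
        exact (down_le_iff (hAi a ha).1 (hAi a ha).2.1 _).1
          (Finset.le_sup (f := id) (Finset.mem_image_of_mem _ ha))
      · exact hB.2.1.trans (Finset.sup_mono Finset.subset_union_left)
      · exact fun j hj hjn hjk =>
          ⟨j, Finset.mem_union_right _ (by simp [hj, hjn, hjk]), le_rfl⟩
    obtain ⟨B₁, hB₁, hB₁A⟩ := exists_isMinCover (fun P hP h => by
      obtain ⟨a, ha, rfl⟩ := Finset.mem_image.1 hP
      exact (hAi a ha).2.2.1 (le_of_down_le hk hkn.le h)) hcov
    let X : Finset L :=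
      Finset.univ.filter fun x => SupIrred x ∧ rank x ≤ n ∧ down n x ∈ B₁
    have hkX : k ≤ X.sup id := by
      have h : B₁.sup id ≤ down n (X.sup id) := by
        refine Finset.sup_le fun P hP => ?_
        obtain ⟨x, hx, hxn, rfl⟩ := exists_eq_down (hB₁.1 P hP).1
        intro y hy
        exact ⟨hy.1, hy.2.1,
          hy.2.2.trans (Finset.le_sup (f := id) (by simp [X, hx, hxn, hP]))⟩
      exact le_of_down_le hk hkn.le (hB₁.2.1.trans h)
    -- every member lies below `B` or depends on part of it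
    have hstep : ∀ x ∈ X, ∃ C : Finset L, x ≤ C.sup id ∧ ∀ c ∈ C, SupIrred c ∧
        (∃ a ∈ B, c ≤ a) ∧ (c = x ∨ (x < k ∧ JoinDep x c)) := by
      intro x hx
      obtain ⟨-, hxi, hxn, hxB⟩ := Finset.mem_filter.1 hx
      by_cases hxb : ∃ a ∈ B, x ≤ a
      · refine ⟨{x}, by simp, fun c hc => ?_⟩
        rw [Finset.mem_singleton.1 hc]
        exact ⟨hxi, hxb, Or.inl rfl⟩
      · obtain ⟨P, hP, hxP⟩ := hB₁A _ hxB
        obtain ⟨a, ha, rfl⟩ := Finset.mem_image.1 hP
        have hxa : x ≤ a := le_of_down_le hxi hxn hxP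
        rcases Finset.mem_union.1 ha with ha | ha
        · exact absurd ⟨a, ha, hxa⟩ hxb
        · obtain ⟨-, -, han, hak⟩ := Finset.mem_filter.1 ha
          have hlt : x < k := hxa.trans_lt (hak.lt_of_ne fun e => han.ne (e ▸ hkn))
          obtain ⟨C, hC, hCB⟩ := exists_isMinCover (fun a ha hle => hxb ⟨a, ha, hle⟩)
            (hlt.le.trans hB.2.1)
          exact ⟨C, hC.2.1,
            fun c hc => ⟨(hC.1 c hc).1, hCB c hc, Or.inr ⟨hlt, C, hC, hc⟩⟩⟩
    choose C hC hCmem using hstep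
    have hsub := hB.2.2 (X.attach.biUnion fun x => C x.1 x.2) (fun c hc => by
        obtain ⟨x, -, hcx⟩ := Finset.mem_biUnion.1 hc
        exact ⟨(hCmem x.1 x.2 c hcx).1, (hCmem x.1 x.2 c hcx).2.1⟩)
      (hkX.trans (Finset.sup_le fun x hx => (hC x hx).trans (Finset.sup_mono fun c hc =>
        Finset.mem_biUnion.2 ⟨⟨x, hx⟩, Finset.mem_attach _ _, hc⟩)))
    obtain ⟨⟨x, hx⟩, -, hbx⟩ := Finset.mem_biUnion.1 (hsub hbB)
    obtain ⟨-, hxi, hxn, hxB⟩ := Finset.mem_filter.1 hx
    have hdep : JoinDep (down n k) (down n x) := ⟨B₁, hB₁, hxB⟩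
    rcases (hCmem x hx b hbx).2.2 with rfl | ⟨hlt, hxb⟩
    · exact Relation.TransGen.single hdep
    · have hxeq : rank x = n :=
        le_antisymm hxn (hbn ▸ rank_le (Relation.ReflTransGen.single hxb))
      exact Relation.TransGen.head hdep (ih x hlt hxi hxeq b hxb hbn)

/-- If all lattices whose non-join-prime irreducibles form one component are representable, then
every finite lattice is. -/
theorem reduction (hglue : GlueStmt)
    (H : ∀ (M : Type) [Lattice M] [OrderBot M] [Finite M],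
      (∀ k k' : M, SupIrred k → ¬SupPrime k → SupIrred k' → ¬SupPrime k' →
        Relation.ReflTransGen JoinDep k k') → IsConLattice (fun a b : M => a ≤ b)) :
    IsConLattice (fun a b : L => a ≤ b) := by
  refine isConLattice_of_levels rank (fun k hk A hA => exists_refinement hk hA) hglue fun n => ?_
  refine H (Lvl L n) fun P Q hP hPn hQ hQn => ?_
  obtain ⟨k, hk, hkn, rfl⟩ := exists_eq_down hP
  obtain ⟨k', hk', hkn', rfl⟩ := exists_eq_down hQ
  have he : rank k = n := le_antisymm hkn (le_of_not_gt fun h => hPn (supPrime_down hk h))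
  have he' : rank k' = n := le_antisymm hkn' (le_of_not_gt fun h => hQn (supPrime_down hk' h))
  have hpath := reach_of_rank_eq (he.trans he'.symm : rank k = rank k')
  clear hPn hQn hQ hP hkn
  induction hpath using Relation.ReflTransGen.head_induction_on with
  | refl => exact Relation.ReflTransGen.refl
  | @head a c hac hcb ih =>
    obtain ⟨B, hB, hcB⟩ := hac
    have hc : rank c = n := le_antisymm
      (he ▸ rank_le (Relation.ReflTransGen.single ⟨B, hB, hcB⟩)) (he' ▸ rank_le hcb)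
    exact ((dep_down hk he c ⟨B, hB, hcB⟩ hc).to_reflTransGen).trans
      (ih (hB.1 c hcB).1 hc)

end Vale.Agent.P183.Levels
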