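import Vale.Agent.P183.Duality
import Vale.Agent.P183.Glue.Main
import Vale.Agent.P183.Levels.Catalyst
import Vale.Agent.P183.Levels.Reduction

/-!
# Consequences of the level decomposition
-/

namespace Vale.Agent.P183.Levels

open scoped Classical

variable {L : Type} [Lattice L] [OrderBot L] [Fintype L]

set_option linter.unusedSectionVars false

/-- An element with a dependency is not join-prime. -/
theorem not_supPrime_of_minCover {k : L} {B : Finset L} (hB : IsMinCover k B) : ¬SupPrime k := by
  intro hk
  obtain ⟨b, hb, hkb⟩ := hk.le_finset_sup.1 hB.2.1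
  exact (hB.1 b hb).2 hkb

/-- Every lattice whose dependency components have at most two elements is representable. -/
theorem isConLattice_of_small_components (hglue : GlueStmt)
    (h : ∀ k : L, SupIrred k → ∀ b b' : L, b ≠ k → b' ≠ k →
      Relation.ReflTransGen JoinDep k b → Relation.ReflTransGen JoinDep b k →
      Relation.ReflTransGen JoinDep k b' → Relation.ReflTransGen JoinDep b' k → b = b') :
    IsConLattice (fun a b : L => a ≤ b) :=
  isConLattice_of_component hglue fun k hk B hB b hb b' hb' e e' =>
    h k hk b b' (fun he => (hB.1 b hb).2 he.ge) (fun he => (hB.1 b' hb').2 he.ge)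
      (Relation.ReflTransGen.single ⟨B, hB, hb⟩) e
      (Relation.ReflTransGen.single ⟨B, hB, hb'⟩) e'

/-- The class of lattices whose join covers refine to at most one member that is not join-prime is
contained in the class of `isConLattice_of_component`. -/
theorem component_of_covers
    (hP : ∀ k : L, SupIrred k → ∀ A : Finset L, k ≤ A.sup id → ∃ B : Finset L,
      (∀ b ∈ B, SupIrred b ∧ ∃ a ∈ A, b ≤ a) ∧ k ≤ B.sup id ∧
      ∀ b ∈ B, ∀ b' ∈ B, ¬SupPrime b → ¬SupPrime b' → b = b') :
    ∀ k : L, SupIrred k → ∀ B, IsMinCover k B → ∀ b ∈ B, ∀ b' ∈ B,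
      Relation.ReflTransGen JoinDep b k → Relation.ReflTransGen JoinDep b' k → b = b' := by
  intro k hk B hB b hb b' hb' e e'
  obtain ⟨C, hC, hkC, hone⟩ := hP k hk B hB.2.1
  have hsub := hB.2.2 C hC hkC
  have hnp : ∀ x ∈ B, Relation.ReflTransGen JoinDep x k → ¬SupPrime x := by
    intro x hx hxk
    rcases Relation.ReflTransGen.cases_head hxk with heq | ⟨y, ⟨D, hD, -⟩, -⟩
    · exact absurd heq.ge (hB.1 x hx).2
    · exact not_supPrime_of_minCover hD
  exact hone b (hsub hb) b' (hsub hb') (hnp b hb e) (hnp b' hb' e')

/-- Every finite lattice is representable if and only if those whose irreducibles that are not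
join-prime form one dependency component are. -/
theorem all_iff_one_component (hglue : GlueStmt) :
    (∀ (L : Type) [Lattice L] [OrderBot L] [Finite L], IsConLattice (fun a b : L => a ≤ b)) ↔
    ∀ (L : Type) [Lattice L] [OrderBot L] [Finite L],
      (∀ k k' : L, SupIrred k → ¬SupPrime k → SupIrred k' → ¬SupPrime k' →
        Relation.ReflTransGen JoinDep k k') → IsConLattice (fun a b : L => a ≤ b) :=
  ⟨fun h L _ _ _ _ => h L, fun h L _ _ _ =>
    have := Fintype.ofFinite L
    reduction hglue h⟩

/-- A lattice is representable as soon as its order dual has at most one member of the component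
of `k` in each minimal join cover of `k`, that is, dually for meets. -/
theorem isConLattice_of_component_dual [OrderTop L] (hglue : GlueStmt)
    (h : ∀ k : OrderDual L, SupIrred k → ∀ B, IsMinCover k B → ∀ b ∈ B, ∀ b' ∈ B,
      Relation.ReflTransGen JoinDep b k → Relation.ReflTransGen JoinDep b' k → b = b') :
    IsConLattice (fun a b : L => a ≤ b) :=
  (isConLattice_of_component hglue h).dual.congr OrderDual.toDual fun _ _ => Iff.rfl

/-- Gluing is available. -/
theorem glueStmt : GlueStmt := fun hR hS φ hφ b m q hb hq => Glue.glue hR hS φ hφ b m q hb hq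

end Vale.Agent.P183.Levels
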